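import Mathlib
import Vale.Agent.P066.Z.Main

/-!
# P066: Shareshian-Wachs positivity for all natural unit interval graphs
-/

namespace Vale.Agent.Results.P066.Positivity

open Vale.Agent.P066

/-- For every natural unit interval graph the chromatic quasisymmetric function is a combination of
the `e_λ` with coefficients in `ℕ[q]`. -/
theorem result : ∀ (n : ℕ) (h : Fin n → Fin n), Monotone h → (∀ i, i ≤ h i) → EPositive h :=
  fun _ _ hm hl => Z.ePositive ⟨hm, hl⟩

end Vale.Agent.Results.P066.Positivity
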